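import Vale.Agent.P163.Helicity.Linear

/-!
The `O(n)` model with frozen spins outside a set `D`, and its Ward identity.
-/

noncomputable section

namespace Vale.Agent.P163.Mass

open MeasureTheory Metric Helicity
open scoped RealInnerProductSpace

variable {n : ℕ} {V ι : Type*} [Fintype V] [Fintype ι]

open Classical in
/-- The single-site law: uniform on `D`, frozen to `η` elsewhere. -/
def siteLaw (D : Set V) (η : V → Spin n) (x : V) : Measure (Spin n) :=
  if x ∈ D then sphereUnif n else Measure.dirac (η x)

/-- The reference law with the spins outside `D` frozen to `η`. -/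
def law (D : Set V) (η : V → Spin n) : Measure (V → Spin n) := Measure.pi (siteLaw D η)

instance isProbSiteLaw [NeZero n] (D : Set V) (η : V → Spin n) (x : V) :
    IsProbabilityMeasure (siteLaw D η x) := by
  unfold siteLaw; split_ifs <;> infer_instance

instance isProbLaw [NeZero n] (D : Set V) (η : V → Spin n) :
    IsProbabilityMeasure (law D η) := by
  unfold law; infer_instance

/-- The unnormalised expectation with frozen spins. -/
def avD (G : Helicity.Graph V ι) (β : ℝ) (D : Set V) (η : V → Spin n) (F : (V → Spin n) → ℝ) : ℝ :=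
  ∫ σ, F σ * Real.exp (β * en G σ) ∂law D η

/-- Continuous functions are integrable. -/
theorem integD [NeZero n] {D : Set V} {η : V → Spin n} {F : (V → Spin n) → ℝ} (hF : Continuous F) :
    Integrable F (law D η) := by
  obtain ⟨C, hC⟩ := isCompact_univ.exists_bound_of_continuousOn hF.continuousOn
  exact Integrable.of_bound hF.aestronglyMeasurable C
    (Filter.Eventually.of_forall fun σ => hC σ (Set.mem_univ σ))

variable {G : Helicity.Graph V ι} {β : ℝ} {D : Set V} {η : V → Spin n}

lemma integrable_avD [NeZero n] {F : (V → Spin n) → ℝ} (hF : Continuous F) :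
    Integrable (fun σ => F σ * Real.exp (β * en G σ)) (law D η) := integD (by fun_prop)

theorem integral_rot_law [NeZero n] {i j : Fin n} (h : i ≠ j) {g : V → ℝ}
    (hg : ∀ x ∉ D, g x = 0) (t : ℝ) {F : (V → Spin n) → ℝ} (hF : Continuous F) :
    ∫ σ, F (rot h g t σ) ∂law D η = ∫ σ, F σ ∂law D η := by
  have hm : (law D η).map (rot h g t) = law D η := by
    refine (measurePreserving_pi (siteLaw D η) (siteLaw D η) fun x => ?_).map_eq
    refine ⟨(continuous_sphereMap _).measurable, ?_⟩
    by_cases hx : x ∈ D
    · simp only [siteLaw, if_pos hx]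
      exact map_sphereUnif _
    · simp only [siteLaw, if_neg hx]
      rw [Measure.map_dirac]
      congr 1
      apply Subtype.ext
      rw [hg x hx, mul_zero]
      exact (pl h).rot_zero _
  conv_rhs => rw [← hm]
  exact (integral_map (continuous_rotF _ _).aemeasurable hF.aestronglyMeasurable).symm

/-- The Ward identity for rotation fields vanishing on the frozen sites. -/
theorem wardD [NeZero n] {i j : Fin n} {h : i ≠ j} {g : V → ℝ} (hg : ∀ x ∉ D, g x = 0)
    {F F' : (V → Spin n) → ℝ} (hF : HasRot h g F F') :
    avD G β D η F' + β * avD G β D η (fun σ => F σ * cur G i j (dd G g) σ) = 0 := by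
  set C := cur (n := n) G i j (dd G g) with hC
  have hCc : Continuous C := continuous_cur i j _
  set K : (V → Spin n) → ℝ := fun σ => F σ * Real.exp (β * en G σ) with hK
  set K' : (V → Spin n) → ℝ := fun σ => (F' σ + β * (F σ * C σ)) * Real.exp (β * en G σ) with hK'
  have hKc : Continuous K := by have := hF.cont; fun_prop
  have hKc' : Continuous K' := by have := hF.cont; have := hF.cont'; fun_prop
  have hrc : ∀ t, Continuous (rot (V := V) h g t) := fun t => continuous_rotF _ _
  obtain ⟨M, hM⟩ := isCompact_univ.exists_bound_of_continuousOn hKc'.continuousOn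
  have hd := (hasDerivAt_integral_of_dominated_loc_of_deriv_le (μ := law D η)
    (F := fun t σ => K (rot h g t σ)) (F' := fun t σ => K' (rot h g t σ)) (x₀ := (0 : ℝ))
    (bound := fun _ => M) (s := Set.univ) Filter.univ_mem
    (Filter.Eventually.of_forall fun t => (hKc.comp (hrc t)).aestronglyMeasurable)
    (integD (hKc.comp (hrc 0))) (hKc'.comp (hrc 0)).aestronglyMeasurable
    (Filter.Eventually.of_forall fun σ t _ => hM _ (Set.mem_univ _))
    (integrable_const M)
    (Filter.Eventually.of_forall fun σ t _ => ?_)).2
  · have hconst : ∀ t, ∫ σ, K (rot h g t σ) ∂law D η = ∫ σ, K σ ∂law D η := fun t =>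
      integral_rot_law h hg t hKc
    simp only [hconst, rot_zero] at hd
    have h0 : ∫ σ, K' σ ∂law D η = 0 := (hd.unique (hasDerivAt_const _ _))
    have hFC : Continuous fun σ => F σ * C σ := hF.cont.mul hCc
    unfold avD
    rw [← integral_const_mul, ← integral_add (integrable_avD hF.cont') (Integrable.const_mul
      (integrable_avD hFC) β), ← h0]
    exact integral_congr_ae (Filter.Eventually.of_forall fun σ => by simp only [hK']; ring)
  · have h1 := hF.deriv_at σ t
    have h2 := ((hasRot_en (G := G) h g).deriv_at σ t).const_mul β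
    refine (h1.mul h2.exp).congr_deriv ?_
    simp only [hK', hC]; ring

lemma avD_add [NeZero n] {F K : (V → Spin n) → ℝ} (hF : Continuous F) (hK : Continuous K) :
    avD G β D η (fun σ => F σ + K σ) = avD G β D η F + avD G β D η K := by
  simp only [avD, add_mul]
  exact integral_add (integrable_avD hF) (integrable_avD hK)

lemma avD_sub [NeZero n] {F K : (V → Spin n) → ℝ} (hF : Continuous F) (hK : Continuous K) :
    avD G β D η (fun σ => F σ - K σ) = avD G β D η F - avD G β D η K := by
  simp only [avD, sub_mul]
  exact integral_sub (integrable_avD hF) (integrable_avD hK)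

lemma avD_const_mul (c : ℝ) (F : (V → Spin n) → ℝ) :
    avD G β D η (fun σ => c * F σ) = c * avD G β D η F := by
  simp only [avD, mul_assoc, integral_const_mul]

lemma avD_zero : avD G β D η (fun _ => (0 : ℝ)) = 0 := by simp [avD]

lemma avD_sum [NeZero n] {κ : Type*} (s : Finset κ) {f : κ → (V → Spin n) → ℝ}
    (hf : ∀ k ∈ s, Continuous (f k)) :
    avD G β D η (fun σ => ∑ k ∈ s, f k σ) = ∑ k ∈ s, avD G β D η (f k) := by
  simp only [avD, Finset.sum_mul]
  exact integral_finsetSum _ fun k hk => integrable_avD (hf k hk)

lemma avD_mono [NeZero n] {F K : (V → Spin n) → ℝ} (hF : Continuous F) (hK : Continuous K)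
    (h : ∀ σ, F σ ≤ K σ) : avD G β D η F ≤ avD G β D η K :=
  integral_mono (integrable_avD hF) (integrable_avD hK) fun σ =>
    mul_le_mul_of_nonneg_right (h σ) (Real.exp_pos _).le

lemma avD_nonneg {F : (V → Spin n) → ℝ} (h : ∀ σ, 0 ≤ F σ) : 0 ≤ avD G β D η F :=
  integral_nonneg fun σ => mul_nonneg (h σ) (Real.exp_pos _).le

lemma avD_one_pos [NeZero n] : 0 < avD G β D η (fun _ => (1 : ℝ)) := by
  simp only [avD, one_mul]
  exact integral_exp_pos (integD (by fun_prop))

/-- The Cauchy–Schwarz inequality. -/
lemma avD_mul_sq_le [NeZero n] {F K : (V → Spin n) → ℝ} (hF : Continuous F) (hK : Continuous K) :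
    avD G β D η (fun σ => F σ * K σ) ^ 2 ≤
      avD G β D η (fun σ => F σ * F σ) * avD G β D η (fun σ => K σ * K σ) := by
  have h : ∀ t : ℝ, 0 ≤ avD G β D η (fun σ => K σ * K σ) * (t * t) +
      (-2 * avD G β D η (fun σ => F σ * K σ)) * t + avD G β D η (fun σ => F σ * F σ) := fun t => by
    have h0 : 0 ≤ avD G β D η fun σ => (F σ - t * K σ) * (F σ - t * K σ) :=
      avD_nonneg fun σ => mul_self_nonneg _
    have e : (fun σ => (F σ - t * K σ) * (F σ - t * K σ)) =
        fun σ => t * t * (K σ * K σ) - 2 * t * (F σ * K σ) + F σ * F σ := by funext σ; ring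
    rw [e, avD_add (by fun_prop) (by fun_prop), avD_sub (by fun_prop) (by fun_prop),
      avD_const_mul, avD_const_mul] at h0
    linarith
  have hd := discrim_le_zero h
  simp only [discrim] at hd
  nlinarith [hd]

end Vale.Agent.P163.Mass
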