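import Vale.Agent.P163.Helicity.Algebra
import Vale.Agent.P163.Mass.Model

/-!
Exact identities for current packets with frozen boundary spins.
-/

noncomputable section

namespace Vale.Agent.P163.Mass

open MeasureTheory Helicity

variable {n : ℕ} {V ι : Type*} [Fintype V] [Fintype ι]

/-- The diagonal product of one component, weighted by `A`. -/
def diag (G : Helicity.Graph V ι) (k : Fin n) (A : ι → ℝ) (σ : V → Spin n) : ℝ :=
  ∑ b, A b * (co k (G.src b) σ * co k (G.tgt b) σ)

variable {G : Helicity.Graph V ι}

omit [Fintype V] in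
lemma pen_eq_diag (i j : Fin n) (A : ι → ℝ) (σ : V → Spin n) :
    pen G i j A σ = diag G i A σ + diag G j A σ := by
  simp only [pen, diag, ← Finset.sum_add_distrib, mul_add]

omit [Fintype V] in
lemma adiff_eq_diag (i j : Fin n) (A : ι → ℝ) (σ : V → Spin n) :
    adiff G i j A σ = diag G i A σ - diag G j A σ := by
  simp only [adiff, diag, ← Finset.sum_sub_distrib, mul_sub]

omit [Fintype V] in
lemma diag_sub (k : Fin n) (A B : ι → ℝ) (σ : V → Spin n) :
    diag G k (fun b => A b - B b) σ = diag G k A σ - diag G k B σ := by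
  simp only [diag, sub_mul, Finset.sum_sub_distrib]

omit [Fintype V] in
lemma diag_sum {κ : Type*} (s : Finset κ) (k : Fin n) (A : κ → ι → ℝ) (σ : V → Spin n) :
    diag G k (fun b => ∑ q ∈ s, A q b) σ = ∑ q ∈ s, diag G k (A q) σ := by
  simp only [diag, Finset.sum_mul]
  exact Finset.sum_comm

lemma continuous_diag (k : Fin n) (A : ι → ℝ) : Continuous (diag (n := n) G k A) := by
  have := fun a x => continuous_co (n := n) (V := V) a x
  unfold diag; fun_prop

variable [NeZero n] {β : ℝ} {D : Set V} {η : V → Spin n} {i j k : Fin n}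

omit [NeZero n] in
lemma avD_neg (F : (V → Spin n) → ℝ) : avD G β D η (fun σ => -F σ) = -avD G β D η F := by
  simp only [avD, neg_mul, integral_neg]

/-- A current against the current of a gradient. -/
lemma cur_grad (h : i ≠ j) {g : V → ℝ} (hg : ∀ x ∉ D, g x = 0) (A : ι → ℝ) :
    β * avD G β D η (fun σ => cur G i j A σ * cur G i j (dd G g) σ) =
      avD G β D η (pen G i j fun b => A b * dd G g b) := by
  have w := wardD (G := G) (β := β) (η := η) hg (hasRot_cur_same (G := G) h g A)
  rw [avD_neg] at w
  linarith

/-- A symmetric product against the current of a gradient. -/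
lemma sym_grad (h : i ≠ j) {g : V → ℝ} (hg : ∀ x ∉ D, g x = 0) (A : ι → ℝ) :
    β * avD G β D η (fun σ => sym G i j A σ * cur G i j (dd G g) σ) =
      -avD G β D η (adiff G i j fun b => A b * (2 * mid G g b)) := by
  have w := wardD (G := G) (β := β) (η := η) hg (hasRot_sym_same (G := G) h g A)
  linarith

/-- A gradient has mean zero. -/
lemma cur_grad_one (h : i ≠ j) (hβ : β ≠ 0) {g : V → ℝ} (hg : ∀ x ∉ D, g x = 0) :
    avD G β D η (cur (n := n) G i j (dd G g)) = 0 := by
  have w := wardD (G := G) (β := β) (η := η) hg (HasRot.const (h := h) (g := g) (1 : ℝ))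
  rw [avD_zero, zero_add] at w
  simp only [one_mul] at w
  exact (mul_eq_zero.1 w).resolve_left hβ

omit [NeZero n] in
/-- The current in the plane `(i,k)` rotated in the plane `(j,k)`. -/
lemma hasRot_cur_cross (hij : i ≠ j) (hik : i ≠ k) (hjk : j ≠ k) (g : V → ℝ) (A : ι → ℝ) :
    HasRot hjk g (cur G i k A) (fun σ => cur G i j (fun b => A b * mid G g b) σ -
      sym G i j (fun b => A b * dd G g b) σ / 2) := by
  unfold cur
  refine (HasRot.sum _ fun b _ => HasRot.const_mul (A b)
    (((hasRot_co hjk g i (G.src b)).mul (hasRot_co hjk g k (G.tgt b))).sub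
      ((hasRot_co hjk g k (G.src b)).mul (hasRot_co hjk g i (G.tgt b))))).congr_deriv fun σ => ?_
  simp only [sym, Finset.sum_div, ← Finset.sum_sub_distrib, if_neg hik, if_neg hij,
    if_neg hjk.symm, ite_true, dd, mid]
  exact Finset.sum_congr rfl fun b _ => by ring

/-- The Ward identity for a packet. -/
theorem pairD (hij : i ≠ j) (hik : i ≠ k) (hjk : j ≠ k) {g h : V → ℝ} (hg0 : ∀ x ∉ D, g x = 0)
    (hh0 : ∀ x ∉ D, h x = 0) {F Fg Fh : (V → Spin n) → ℝ} (hg : HasRot hik g F Fg)
    (hh : HasRot hik h F Fh) :
    β * avD G β D η (fun σ => F σ * pack G i j k g h σ) +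
      avD G β D η (fun σ => Fg σ * cur G j k (dd G h) σ) -
      avD G β D η (fun σ => Fh σ * cur G j k (dd G g) σ) -
      avD G β D η (fun σ => F σ * cur G i j (wgt G g h) σ) = 0 := by
  have hp := fun a c A => Helicity.continuous_cur (G := G) (n := n) a c A
  have key : ∀ (g h : V → ℝ) (Fg : (V → Spin n) → ℝ), (∀ x ∉ D, g x = 0) → HasRot hik g F Fg →
      avD G β D η (fun σ => Fg σ * cur G j k (dd G h) σ) +
        -avD G β D η (fun σ => F σ * cur G i j (fun b => dd G h b * mid G g b) σ) -
        avD G β D η (fun σ => F σ * sym G i j (fun b => dd G h b * dd G g b) σ) / 2 +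
        β * avD G β D η (fun σ => F σ * (cur G i k (dd G g) σ * cur G j k (dd G h) σ)) = 0 := by
    intro g h Fg hg0 hg
    have w := wardD (G := G) (β := β) (η := η) hg0
      (hg.mul (hasRot_cur_right (G := G) hij hik hjk g (dd G h)))
    have c1 : Continuous fun σ => Fg σ * cur G j k (dd G h) σ := hg.cont'.mul (hp j k _)
    have c2 : Continuous fun σ => F σ * cur G i j (fun b => dd G h b * mid G g b) σ :=
      hg.cont.mul (hp i j _)
    have c3 : Continuous fun σ =>
        (1 / 2 : ℝ) * (F σ * sym G i j (fun b => dd G h b * dd G g b) σ) :=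
      continuous_const.mul (hg.cont.mul (continuous_sym i j _))
    have e : (fun σ => Fg σ * cur G j k (dd G h) σ + F σ *
        (-cur G i j (fun b => dd G h b * mid G g b) σ - sym G i j (fun b => dd G h b * dd G g b) σ / 2))
        = fun σ => Fg σ * cur G j k (dd G h) σ -
          (F σ * cur G i j (fun b => dd G h b * mid G g b) σ +
            (1 / 2) * (F σ * sym G i j (fun b => dd G h b * dd G g b) σ)) := by
      funext σ; ring
    rw [e, avD_sub c1 (c2.fun_add c3), avD_add c2 c3, avD_const_mul] at w
    have e2 : (fun σ => F σ * (cur G i k (dd G g) σ * cur G j k (dd G h) σ)) =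
        fun σ => F σ * cur G j k (dd G h) σ * cur G i k (dd G g) σ := by funext σ; ring
    rw [e2]
    linarith
  have k1 := key g h Fg hg0 hg
  have k2 := key h g Fh hh0 hh
  rw [show (fun b => dd G g b * dd G h b) = fun b => dd G h b * dd G g b from
    funext fun b => mul_comm _ _] at k2
  have c2 : ∀ A, Continuous fun σ => F σ * cur G i j A σ := fun A => hg.cont.mul (hp i j A)
  have c4 : ∀ A B, Continuous fun σ => F σ * (cur G i k A σ * cur G j k B σ) := fun A B =>
    hg.cont.mul ((hp i k A).mul (hp j k B))
  have e1 : (fun σ => F σ * pack G i j k g h σ) = fun σ =>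
      F σ * (cur G i k (dd G g) σ * cur G j k (dd G h) σ) -
        F σ * (cur G i k (dd G h) σ * cur G j k (dd G g) σ) := by
    funext σ; simp only [pack]; ring
  have e3 : (fun σ => F σ * cur G i j (wgt G g h) σ) = fun σ =>
      F σ * cur G i j (fun b => dd G h b * mid G g b) σ -
        F σ * cur G i j (fun b => dd G g b * mid G h b) σ := by
    funext σ
    rw [← mul_sub, ← Helicity.cur_sub]
    refine congrArg (fun X => F σ * cur G i j X σ) (funext fun b => ?_)
    simp only [wgt, dd, mid]; ring
  rw [e1, e3, avD_sub (c4 _ _) (c4 _ _), avD_sub (c2 _) (c2 _)]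
  linarith

/-- The mean of a packet; only one of the two fields has to vanish on the frozen sites. -/
theorem pack_mean (hij : i ≠ j) (hik : i ≠ k) (hjk : j ≠ k) (hβ : β ≠ 0) {g : V → ℝ}
    (hg0 : ∀ x ∉ D, g x = 0) (h : V → ℝ) :
    β * avD G β D η (pack G i j k g h) = avD G β D η (cur G i j (wgt G g h)) := by
  have hp := fun a c A => Helicity.continuous_cur (G := G) (n := n) a c A
  have w1 := wardD (G := G) (β := β) (η := η) hg0
    (hasRot_cur_right (G := G) hij hik hjk g (dd G h))
  have w2 := wardD (G := G) (β := β) (η := η) hg0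
    (hasRot_cur_cross (G := G) hij hik hjk g (dd G h))
  have w3 := cur_grad_one (G := G) (η := η) (D := D) hij hβ (g := fun x => g x * h x)
    (fun x hx => by simp [hg0 x hx])
  have cM : Continuous fun σ : V → Spin n => cur G i j (fun b => dd G h b * mid G g b) σ := hp _ _ _
  have cS : Continuous fun σ : V → Spin n =>
      (1 / 2 : ℝ) * sym G i j (fun b => dd G h b * dd G g b) σ :=
    continuous_const.mul (continuous_sym i j _)
  have cP : ∀ A B, Continuous fun σ : V → Spin n => cur G i k A σ * cur G j k B σ := fun A B =>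
    (hp i k A).mul (hp j k B)
  rw [show (fun σ => -cur G i j (fun b => dd G h b * mid G g b) σ -
      sym G i j (fun b => dd G h b * dd G g b) σ / 2) = fun σ =>
      -(cur G i j (fun b => dd G h b * mid G g b) σ +
        (1 / 2) * sym G i j (fun b => dd G h b * dd G g b) σ) by funext σ; ring,
    avD_neg, avD_add cM cS, avD_const_mul,
    show (fun σ => cur G j k (dd G h) σ * cur G i k (dd G g) σ) = fun σ =>
      cur G i k (dd G g) σ * cur G j k (dd G h) σ by funext σ; ring] at w1
  rw [show (fun σ => cur G i j (fun b => dd G h b * mid G g b) σ -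
      sym G i j (fun b => dd G h b * dd G g b) σ / 2) = fun σ =>
      cur G i j (fun b => dd G h b * mid G g b) σ -
        (1 / 2) * sym G i j (fun b => dd G h b * dd G g b) σ by funext σ; ring,
    avD_sub cM cS, avD_const_mul] at w2
  have e : (fun σ => cur G i j (wgt G g h) σ) = fun σ =>
      2 * cur G i j (fun b => dd G h b * mid G g b) σ -
        cur G i j (dd G fun x => g x * h x) σ := by
    funext σ
    rw [← Helicity.cur_smul, ← Helicity.cur_sub]
    refine congrArg (fun X => cur G i j X σ) (funext fun b => ?_)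
    simp only [wgt, dd, mid]; ring
  rw [show avD G β D η (cur G i j (wgt G g h)) = avD G β D η (fun σ => cur G i j (wgt G g h) σ) from
    rfl, e, avD_sub (cM.const_mul 2) (hp _ _ _), avD_const_mul, w3,
    show pack (n := n) G i j k g h = fun σ => cur G i k (dd G g) σ * cur G j k (dd G h) σ -
      cur G i k (dd G h) σ * cur G j k (dd G g) σ from rfl,
    avD_sub (cP _ _) (cP _ _)]
  linarith

/-- A current against a packet. -/
theorem cur_packD (hij : i ≠ j) (hik : i ≠ k) (hjk : j ≠ k) {g h : V → ℝ}
    (hg0 : ∀ x ∉ D, g x = 0) (hh0 : ∀ x ∉ D, h x = 0) (A : ι → ℝ) :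
    β ^ 2 * avD G β D η (fun σ => cur G i j A σ * pack G i j k g h σ) =
      β * avD G β D η (fun σ => cur G i j A σ * cur G i j (wgt G g h) σ) -
        2 * avD G β D η (diag G k fun b => A b * wgt G g h b) := by
  have p := pairD (G := G) (β := β) (η := η) hij hik hjk hg0 hh0
    (hasRot_cur_left (G := G) hij hik hjk g A) (hasRot_cur_left (G := G) hij hik hjk h A)
  have key : ∀ g h : V → ℝ, (∀ x ∉ D, h x = 0) →
      β * avD G β D η (fun σ => (cur G j k (fun b => A b * mid G g b) σ -
        sym G j k (fun b => A b * dd G g b) σ / 2) * cur G j k (dd G h) σ) =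
      avD G β D η (pen G j k fun b => A b * mid G g b * dd G h b) +
        (1 / 2) * avD G β D η (adiff G j k fun b => A b * dd G g b * (2 * mid G h b)) := by
    intro g h hh0
    have c1 : Continuous fun σ : V → Spin n =>
        cur G j k (fun b => A b * mid G g b) σ * cur G j k (dd G h) σ :=
      (Helicity.continuous_cur j k _).mul (Helicity.continuous_cur j k _)
    have c2 : Continuous fun σ : V → Spin n =>
        (1 / 2 : ℝ) * (sym G j k (fun b => A b * dd G g b) σ * cur G j k (dd G h) σ) :=
      continuous_const.mul ((continuous_sym j k _).mul (Helicity.continuous_cur j k _))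
    rw [show (fun σ => (cur G j k (fun b => A b * mid G g b) σ -
        sym G j k (fun b => A b * dd G g b) σ / 2) * cur G j k (dd G h) σ) = fun σ =>
        cur G j k (fun b => A b * mid G g b) σ * cur G j k (dd G h) σ -
        (1 / 2) * (sym G j k (fun b => A b * dd G g b) σ * cur G j k (dd G h) σ) by
      funext σ; ring, avD_sub c1 c2, avD_const_mul, mul_sub, cur_grad hjk hh0,
      ← mul_assoc, mul_comm β (1 / 2 : ℝ), mul_assoc, sym_grad hjk hh0]
    ring
  have k1 := key g h hh0
  have k2 := key h g hg0
  have e : (fun σ => 2 * diag G k (fun b => A b * wgt G g h b) σ) = fun σ =>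
      (pen G j k (fun b => A b * mid G g b * dd G h b) σ +
        (1 / 2) * adiff G j k (fun b => A b * dd G g b * (2 * mid G h b)) σ) -
      (pen G j k (fun b => A b * mid G h b * dd G g b) σ +
        (1 / 2) * adiff G j k (fun b => A b * dd G h b * (2 * mid G g b)) σ) := by
    funext σ
    simp only [pen, adiff, diag, Finset.mul_sum, ← Finset.sum_add_distrib, ← Finset.sum_sub_distrib]
    refine Finset.sum_congr rfl fun b _ => ?_
    simp only [wgt, dd, mid]; ring
  have cp := fun A => continuous_pen (G := G) (n := n) j k A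
  have ca := fun A => (continuous_adiff (G := G) (n := n) j k A).const_mul (1 / 2 : ℝ)
  have e' := congrArg (avD G β D η) e
  rw [avD_const_mul, avD_sub ((cp _).fun_add (ca _)) ((cp _).fun_add (ca _)),
    avD_add (cp _) (ca _), avD_add (cp _) (ca _), avD_const_mul, avD_const_mul] at e'
  linear_combination β * p - k1 + k2 + e'

end Vale.Agent.P163.Mass
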